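import Vale.Agent.P087.Model
import Vale.Agent.P087.Upper3
import Vale.Agent.P087.Group
import Vale.Agent.P087.Top

/-! Assembly of the counterexample. -/

set_option linter.unusedSectionVars false

namespace Vale.Agent.P087

open scoped InnerProductSpace ENNReal
open Wd

/-- The two variables which determine `a`. -/
def isA54 (i : Fin 54) : Bool := decide (i = 1 ∨ i = 2)

/-- The coefficients. -/
noncomputable def beta54 (i : Fin 54) (b : Bool) : ℂ :=
  if i = 1 then 1 else if b then Complex.I else -Complex.I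

theorem beta54_le (i : Fin 54) (b : Bool) : ‖beta54 i b‖ ≤ 1 := by
  unfold beta54
  split_ifs <;> simp

theorem beta54_star (i : Fin 54) : star (beta54 i true) = beta54 i false := by
  unfold beta54
  split_ifs <;> simp_all

theorem card54 : (Finset.univ.filter fun j => isA54 j = false).card = 52 := by decide

variable {F : Type} [Group F]

section General

variable {n : ℕ} (D : GData n F) (isA : Fin n → Bool) (β : Fin n → Bool → ℂ) (ε : ℝ)

theorem norm_Yop_le (hβ : ∀ i b, ‖β i b‖ ≤ 1) (hε : 0 ≤ ε) (hε1 : ε ≤ 1) (i : Fin n) :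
    ‖Yop D isA β ε i‖ ≤ 2 := by
  unfold Yop
  split_ifs
  · rw [norm_smul, Complex.norm_real, Real.norm_of_nonneg hε, Fintype.sum_bool]
    refine (mul_le_of_le_one_left (norm_nonneg _) hε1).trans ((norm_add_le _ _).trans ?_)
    have h : ∀ b, ‖β i b • (lam (gen D b) : Bdd (Fock F (Fin n × Bool)))‖ ≤ 1 := fun b => by
      rw [norm_smul]
      exact mul_le_one₀ (hβ i b) (norm_nonneg _) (norm_lam_le _)
    linarith [h true, h false]
  · exact (norm_lam_le _).trans one_le_two

theorem norm_Xop_le (hβ : ∀ i b, ‖β i b‖ ≤ 1) (hε : 0 ≤ ε) (hε1 : ε ≤ 1) (i : Fin n) :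
    ‖Xop D isA β ε (ε ^ 2) i‖ ≤ 4 := by
  refine (norm_add_le _ _).trans ?_
  rw [norm_smul, Complex.norm_real, Real.norm_of_nonneg (by positivity)]
  have h1 := norm_Yop_le D isA β ε hβ hε hε1 i
  have h2 := mul_le_mul (pow_le_one₀ (n := 2) hε hε1) (norm_sem_le (F := F) (i, false))
    (norm_nonneg _) zero_le_one
  linarith

theorem free_XS (r : ℝ) : FreeIndep (tau (vac : Fock F (Fin n × Bool)))
    (genAlg (Xop D isA β ε r) fun j => sem (j, true)) := by
  refine (clAlg_free (fun σ : Fin n × Bool => if σ.2 then some σ.1 else none) none).mono ?_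
  rintro (_ | j)
  · refine Algebra.adjoin_le ?_
    rintro _ ⟨i, rfl⟩
    refine add_mem ?_ (Subalgebra.smul_mem _ (sem_mem_clAlg _ _ (i, false)) _)
    unfold Yop
    split_ifs
    · exact Subalgebra.smul_mem _ (sum_mem fun b _ =>
        Subalgebra.smul_mem _ (lam_mem_clAlg _ _ _) _) _
    · exact lam_mem_clAlg _ _ _
  · exact Algebra.adjoin_le (Set.singleton_subset_iff.2 (sem_mem_clAlg _ _ (j, true)))

/-- The parameters at time `u`. -/
noncomputable def parAt (hβ : ∀ i b, ‖β i b‖ ≤ 1) (hβ' : ∀ i, star (β i true) = β i false)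
    (hε : 0 < ε) (u : ℝ) (hu : 0 < u) : Par n where
  isA := isA
  β := β
  ε := ε
  α b := if b then Real.sqrt u else ε ^ 2
  s := ε ^ 4 + u
  β_le := hβ
  β_star := hβ'
  s_eq := by
    simp only [Fintype.sum_bool, if_true, Bool.false_eq_true, if_false, Real.sq_sqrt hu.le]
    ring
  s_pos := by positivity

theorem Zop_parAt (hβ : ∀ i b, ‖β i b‖ ≤ 1) (hβ' : ∀ i, star (β i true) = β i false)
    (hε : 0 < ε) (u : ℝ) (hu : 0 < u) : Zop D (parAt isA β ε hβ hβ' hε u hu) =
      fun j => Xop D isA β ε (ε ^ 2) j + ((Real.sqrt u : ℝ) : ℂ) • sem (j, true) := by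
  funext j
  simp only [Zop, parAt, Xop, Fintype.sum_bool, if_true, Bool.false_eq_true, if_false]
  abel

theorem chiStar_top (hβ : ∀ i b, ‖β i b‖ ≤ 1) (hβ' : ∀ i, star (β i true) = β i false)
    (hε : 0 < ε) (hε1 : ε ≤ 1) :
    chiStar vac (Xop D isA β ε (ε ^ 2)) (fun j => sem (j, true)) < ⊤ := by
  refine chiStar_lt_top _ _ 16 (by norm_num) fun u hu => ?_
  refine le_fisher norm_vac _ (fun i => ?_) _ (by positivity) fun j => ?_
  · rw [← congrFun (Zop_parAt D isA β ε hβ hβ' hε u hu) i]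
    exact star_Zop _ _ _
  · have h0 : ⟪(sem (j, true) : Bdd (Fock F (Fin n × Bool))) vac,
        Xop D isA β ε (ε ^ 2) j vac⟫_ℂ = 0 := by
      rw [← star_sem, ← inner_vac_apply, star_sem_vac]
      have h := congrArg (fun T : Bdd (Fock F (Fin n × Bool)) => T vac)
        (rann_Yop D isA β ε j (j, true))
      simp only [mul_apply_eq_comp, rann_vac, map_zero] at h
      simp [Xop, h, rann_sem_apply, rann_vac]
    have h1 : ‖Xop D isA β ε (ε ^ 2) j vac‖ ≤ 4 := by
      refine (ContinuousLinearMap.le_opNorm _ _).trans ?_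
      rw [norm_vac, mul_one]
      exact norm_Xop_le D isA β ε hβ hε.le hε1 j
    rw [add_apply, smul_apply, add_comm, sq, norm_add_sq_eq_norm_sq_add_norm_sq_of_inner_eq_zero
      (𝕜 := ℂ) _ _ (by rw [inner_smul_left, h0, mul_zero]), norm_smul, sem_vac, norm_dl, mul_one,
      Complex.norm_real, Real.norm_of_nonneg (Real.sqrt_nonneg _), Real.mul_self_sqrt hu.le]
    nlinarith [norm_nonneg (Xop D isA β ε (ε ^ 2) j vac)]

theorem chiStar_lower (hβ : ∀ i b, ‖β i b‖ ≤ 1) (hβ' : ∀ i, star (β i true) = β i false)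
    (hε : 0 < ε) (hε1 : ε ≤ 1) (hκ : (8 * D.K * n + 1) * ε ^ 2 ≤ 1 / 20) :
    ((-(n * Real.log (1 / 20 / ε ^ 4) - ((Finset.univ.filter fun j => isA j = false).card : ℝ) / 4 *
      Real.log (1 / 20 / ((8 * D.K * n + 1) * ε ^ 2)) + n / (1 / 20)) / 2 : ℝ) : EReal) ≤
    chiStar vac (Xop D isA β ε (ε ^ 2)) (fun j => sem (j, true)) := by
  have hK : (0 : ℝ) ≤ 8 * D.K * n := by positivity
  have hε2 : ε ^ 2 ≤ 1 := pow_le_one₀ hε.le hε1
  refine starBound _ n _ _ _ _ _ _ _ (by positivity) (pow_le_one₀ hε.le hε1) ?_ hκ (by positivity)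
    ?_ (fun u hu => ?_) fun u hu h1 h2 => ?_
  · nlinarith [sq_nonneg ε, mul_nonneg hK (sq_nonneg ε)]
  · have h := Finset.card_filter_le (Finset.univ : Finset (Fin n)) fun j => isA j = false
    have h' : ((Finset.univ.filter fun j => isA j = false).card : ℝ) ≤ n := by
      exact_mod_cast h.trans (by simp)
    have : (0 : ℝ) ≤ n := by positivity
    linarith
  · rw [fisherAt, ← Zop_parAt D isA β ε hβ hβ' hε u hu]
    exact fisher_trivial D _
  · rw [fisherAt, ← Zop_parAt D isA β ε hβ hβ' hε u hu]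
    refine fisher_window D _ ?_ h2
    change 8 * D.K * (n * ε ^ 2 / (ε ^ 4 + u)) ≤ 1
    rw [← mul_div_assoc, div_le_one (by positivity)]
    nlinarith [sq_nonneg ε]

end General

theorem chi_upper54 (D : GData 54 F) : ∃ C : ℝ, ∀ ε : ℝ, 0 < ε → ε ≤ 1 →
    chi (law vac (Xop D isA54 beta54 ε (ε ^ 2))) ≤
      ((C + 24 * Real.log (ε ^ 4) : ℝ) : EReal) := by
  obtain ⟨C, hC⟩ := chi_upper (0 : Fin 54) 1 2 D.e
  refine ⟨C, fun ε hε hε1 => ?_⟩
  have h := hC _ _ vac (Xop D isA54 beta54 ε (ε ^ 2)) (lam D.a) ε fock_tracial hε hε1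
    (Xop_mem D _ _ _ _) (star_Xop D _ _ _ beta54_star _)
    (norm_Xop_le D _ _ _ beta54_le hε.le hε1) (lam_mem _) (norm_lam_le _) ?_ ?_
  · refine h.trans (le_of_eq ?_)
    norm_num
  · have e1 : uhat ε (Xop D isA54 beta54 ε (ε ^ 2) 1) (Xop D isA54 beta54 ε (ε ^ 2) 2) - lam D.a =
        ((ε / 2 : ℝ) : ℂ) • (sem (1, false) - Complex.I • sem (2, false)) := by
      have hε' : (ε : ℂ) ≠ 0 := by exact_mod_cast hε.ne'
      have h1 : isA54 1 = true := by decide
      have h2 : isA54 2 = true := by decide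
      have h3 : (2 : Fin 54) ≠ 1 := by decide
      simp only [uhat, Xop, Yop, h1, h2, if_true, Fintype.sum_bool, beta54, if_neg h3, gen,
        Bool.false_eq_true, if_false]
      push_cast
      match_scalars <;> field_simp <;> simp [sq]
      ring
    rw [e1, norm_smul, Complex.norm_real, Real.norm_of_nonneg (by positivity)]
    have h1 := norm_sub_le (sem (1, false) : Bdd (Fock F (Fin 54 × Bool)))
      (Complex.I • sem (2, false))
    rw [norm_smul, Complex.norm_I, one_mul] at h1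
    have h2 := norm_sem_le (F := F) ((1, false) : Fin 54 × Bool)
    have h3 := norm_sem_le (F := F) ((2, false) : Fin 54 × Bool)
    nlinarith
  · intro j hj
    have h0 : isA54 0 = false := by decide
    have h1 : isA54 j = false := by
      simp only [isA54, decide_eq_false_iff_not]
      exact fun h => hj (Or.inr h)
    have h2 : D.c 0 = D.s := by simp [D.c_eq, D.e_zero 0 rfl]
    have h3 : (lam D.a : Bdd (Fock F (Fin 54 × Bool))) ^ D.e j = lam (D.a ^ D.e j) :=
      (map_pow (lamHom F _) _ _).symm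
    have e1 : Xop D isA54 beta54 ε (ε ^ 2) j -
        ev (lam D.a) (Xop D isA54 beta54 ε (ε ^ 2) 0) (D.e j) = ((ε ^ 2 : ℝ) : ℂ) •
          (sem (j, false) - lam (D.a ^ D.e j) * sem (0, false) * lam (D.a ^ D.e j)⁻¹) := by
      rw [ev_eq, h3, star_lam]
      simp only [Xop, Yop, h0, h1, Bool.false_eq_true, if_false, h2, D.c_eq j, lam_mul, mul_add,
        add_mul, mul_smul_comm, smul_mul_assoc, smul_sub]
      abel
    rw [e1, norm_smul, Complex.norm_real, Real.norm_of_nonneg (by positivity), mul_comm]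
    refine mul_le_mul_of_nonneg_right ((norm_sub_le _ _).trans ?_) (by positivity)
    have h4 := norm_mul3_le (norm_lam_le (Λ := Fin 54 × Bool) (D.a ^ D.e j))
      (norm_sem_le (F := F) ((0, false) : Fin 54 × Bool)) (norm_lam_le (D.a ^ D.e j)⁻¹)
    have h5 := norm_sem_le (F := F) ((j, false) : Fin 54 × Bool)
    linarith

theorem exists_gap (D : GData 54 F) : ∃ ε : ℝ, 0 < ε ∧ ε ≤ 1 ∧
    chi (law vac (Xop D isA54 beta54 ε (ε ^ 2))) <
      chiStar vac (Xop D isA54 beta54 ε (ε ^ 2)) (fun j => sem (j, true)) := by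
  obtain ⟨C, hC⟩ := chi_upper54 D
  set κ : ℝ := 8 * D.K * (54 : ℕ) + 1 with hκ
  have hκ0 : 0 < κ := by positivity
  set C₂ : ℝ := (54 * Real.log (1 / 20) - 13 * (Real.log (1 / 20) - Real.log κ) + 1080) / 2
    with hC₂
  set L : ℝ := |C + C₂| + 10 * κ + 1 with hL
  have hL0 : 0 ≤ L := by positivity
  have hε1 : Real.exp (-L) ≤ 1 := Real.exp_le_one_iff.2 (by linarith)
  have hsm : κ * Real.exp (-L) ^ 2 ≤ 1 / 20 := by
    rw [← Real.exp_nat_mul, show ((2 : ℕ) : ℝ) * -L = -(2 * L) by push_cast; ring, Real.exp_neg,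
      ← div_eq_mul_inv, div_le_iff₀ (Real.exp_pos _)]
    have := Real.add_one_le_exp (2 * L)
    linarith [abs_nonneg (C + C₂)]
  refine ⟨Real.exp (-L), Real.exp_pos _, hε1, (hC _ (Real.exp_pos _) hε1).trans_lt
    (lt_of_lt_of_le ?_ (chiStar_lower D isA54 beta54 _ beta54_le beta54_star (Real.exp_pos _)
      hε1 hsm))⟩
  rw [EReal.coe_lt_coe_iff, card54, ← hκ,
    Real.log_div (x := 1 / 20) (y := Real.exp (-L) ^ 4) (by norm_num) (by positivity),
    Real.log_div (x := 1 / 20) (y := κ * Real.exp (-L) ^ 2) (by norm_num) (by positivity),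
    Real.log_mul hκ0.ne' (by positivity), Real.log_pow, Real.log_pow, Real.log_exp]
  push_cast
  linarith [le_abs_self (C + C₂)]

theorem main : ∃ (H : Type) (_ : NormedAddCommGroup H) (_ : InnerProductSpace ℂ H)
    (_ : CompleteSpace H) (M : VonNeumannAlgebra H) (Ω : H) (n : ℕ) (X S : Fin n → Bdd H),
    IsTracial M Ω ∧ 1 ≤ n ∧ (∀ j, X j ∈ M ∧ IsSelfAdjoint (X j)) ∧
    (∀ j, S j ∈ M ∧ IsSelfAdjoint (S j) ∧ Semicircular (tau Ω) (S j)) ∧
    FreeIndep (tau Ω) (genAlg X S) ∧
    ⊥ < chi (law Ω X) ∧ chi (law Ω X) < chiStar Ω X S ∧ chiStar Ω X S < ⊤ := by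
  obtain ⟨F, _, ⟨D⟩⟩ := groupExists 54 (by norm_num)
  obtain ⟨ε, hε, hε1, h⟩ := exists_gap D
  exact ⟨Fock F (Fin 54 × Bool), inferInstance, inferInstance, inferInstance, fockVN F _, vac, 54,
    Xop D isA54 beta54 ε (ε ^ 2), fun j => sem (j, true), fock_tracial, by norm_num,
    fun j => ⟨Xop_mem D _ _ _ _ j, star_Xop D _ _ _ beta54_star _ j⟩,
    fun j => ⟨sem_mem _, star_sem _, sem_semicircular _⟩, free_XS D _ _ _ _,
    chi_lower D _ _ _ beta54_star beta54_le hε.le hε1 _ (by positivity), h,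
    chiStar_top D _ _ _ beta54_le beta54_star hε hε1⟩

end Vale.Agent.P087
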