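import Vale.Agent.P087.Dual3
import Vale.Agent.P087.Gauss
import Vale.Agent.P087.GueNorm
import Vale.Agent.P087.GueVar
import Vale.Agent.P087.GueVol
import Vale.Agent.P087.Limits

/-! Finiteness of the microstates free entropy. -/

set_option linter.unusedSectionVars false

namespace Vale.Agent.P087

open scoped InnerProductSpace
open Filter Wd

variable {n : ℕ} {F : Type} [Group F] (D : GData n F) (isA : Fin n → Bool)
  (β : Fin n → Bool → ℂ) (ε : ℝ)

/-- The deterministic variables in a representation of the group. -/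
noncomputable def Ygen {A : Type} [Ring A] [Algebra ℂ A] (ρ : F →* A) (i : Fin n) : A :=
  if isA i then (ε : ℂ) • ∑ b, β i b • ρ (gen D b) else ρ (D.c i)

/-- The left regular representation on the Fock space. -/
noncomputable def lamHom (F Λ : Type) [Group F] : F →* Bdd (Fock F Λ) where
  toFun := lam
  map_one' := lam_one
  map_mul' := lam_mul

theorem Yop_eq : Yop D isA β ε = Ygen D isA β ε (lamHom F _) := rfl

theorem lift_Ygen {A : Type} [Ring A] [Algebra ℂ A] (ρ : F →* A) (i : Fin n) :
    MonoidAlgebra.lift ℂ A F ρ (Ygen D isA β ε (MonoidAlgebra.of ℂ F) i) = Ygen D isA β ε ρ i := by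
  unfold Ygen
  split_ifs
  · simp only [map_smul, map_sum, MonoidAlgebra.lift_of]
  · exact MonoidAlgebra.lift_of _ _

theorem map_word' {A B ι G : Type} [Monoid A] [Monoid B] [FunLike G A B] [MonoidHomClass G A B]
    (f : G) (g : ι → A) (w : List ι) : f (word g w) = word (fun i => f (g i)) w := by
  induction w with
  | nil => exact map_one f
  | cons i w ih => rw [word_cons, word_cons, map_mul, ih]

theorem word_Ygen {A : Type} [Ring A] [Algebra ℂ A] (ρ : F →* A) (w : List (Fin n)) :
    word (Ygen D isA β ε ρ) w = ∑ g ∈ (word (Ygen D isA β ε (MonoidAlgebra.of ℂ F)) w).coeff.support,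
      (word (Ygen D isA β ε (MonoidAlgebra.of ℂ F)) w).coeff g • ρ g := by
  have h := map_word' (MonoidAlgebra.lift ℂ A F ρ) (Ygen D isA β ε (MonoidAlgebra.of ℂ F)) w
  simp only [lift_Ygen] at h
  rw [← h, MonoidAlgebra.lift_apply]
  rfl

open Classical in
theorem tau_lam {Λ : Type} (g : F) : tau (vac : Fock F Λ) (lam g) = if g = 1 then 1 else 0 := by
  rw [tau, lam_vac, inner_vac, dl_apply]
  exact if_congr (by simp [eq_comm]) rfl rfl

theorem tau_sum {H ι : Type} [NormedAddCommGroup H] [InnerProductSpace ℂ H] (Ω : H)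
    (s : Finset ι) (f : ι → Bdd H) : tau Ω (∑ i ∈ s, f i) = ∑ i ∈ s, tau Ω (f i) := by
  simp [tau]

open Classical in
theorem trace_perm {k : ℕ} (hk : 1 ≤ k) (π : F →* Equiv.Perm (Fin k)) (g : F)
    (hg : g ≠ 1 → ∀ x, π g x ≠ x) :
    (Matrix.permMatrixHom (R := ℂ) (π g)).trace / k = if g = 1 then 1 else 0 := by
  have hk0 : (k : ℂ) ≠ 0 := by exact_mod_cast (by omega : k ≠ 0)
  split_ifs with h
  · simp [h, hk0]
  · have : Function.fixedPoints ((π g)⁻¹ : Equiv.Perm (Fin k)) = ∅ := by
      refine Set.eq_empty_of_forall_notMem fun x hx => hg h x ?_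
      exact (Equiv.Perm.inv_eq_iff_eq.1 hx).symm
    change ((π g)⁻¹.permMatrix ℂ).trace / k = 0
    rw [Matrix.trace_permutation, this]
    simp

theorem opLe_Ygen {k : ℕ} (π : F →* Equiv.Perm (Fin k)) (hβ : ∀ i b, ‖β i b‖ ≤ 1) (hε : 0 ≤ ε)
    (hε1 : ε ≤ 1) (j : Fin n) :
    OpLe (Ygen D isA β ε ((Matrix.permMatrixHom (R := ℂ)).comp π) j) 2 := by
  intro v
  have h1 : ∀ g, ((Matrix.permMatrixHom (R := ℂ)).comp π g).mulVec v = v ∘ ⇑(π g)⁻¹ :=
    fun g => Matrix.permMatrix_mulVec _
  have h2 : ∀ σ : Equiv.Perm (Fin k), ∑ i, ‖v (σ i)‖ ^ 2 = ∑ i, ‖v i‖ ^ 2 :=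
    fun σ => Equiv.sum_comp σ fun i => ‖v i‖ ^ 2
  have h0 : 0 ≤ ∑ i, ‖v i‖ ^ 2 := by positivity
  unfold Ygen
  split_ifs
  · simp only [Fintype.sum_bool, Matrix.smul_mulVec, Matrix.add_mulVec, h1, Pi.smul_apply,
      Pi.add_apply, Function.comp_apply, smul_eq_mul]
    refine (Finset.sum_le_sum (g := fun i => 2 * (‖v ((π (gen D true))⁻¹ i)‖ ^ 2 +
      ‖v ((π (gen D false))⁻¹ i)‖ ^ 2)) fun i _ => ?_).trans ?_
    · generalize v ((π (gen D true))⁻¹ i) = x
      generalize v ((π (gen D false))⁻¹ i) = y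
      have h3 : ‖(ε : ℂ) * (β j true * x + β j false * y)‖ ≤ ‖x‖ + ‖y‖ := by
        rw [norm_mul, Complex.norm_real, Real.norm_of_nonneg hε]
        refine (mul_le_of_le_one_left (norm_nonneg _) hε1).trans
          ((norm_add_le _ _).trans (add_le_add ?_ ?_)) <;> rw [norm_mul]
        · exact mul_le_of_le_one_left (norm_nonneg _) (hβ _ _)
        · exact mul_le_of_le_one_left (norm_nonneg _) (hβ _ _)
      have h4 := pow_le_pow_left₀ (norm_nonneg _) h3 2
      nlinarith [sq_nonneg (‖x‖ - ‖y‖)]
    · rw [← Finset.mul_sum, Finset.sum_add_distrib, h2, h2]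
      linarith
  · simp only [h1, Function.comp_apply, h2]
    linarith

theorem herm_Ygen {k : ℕ} (π : F →* Equiv.Perm (Fin k)) (hβ : ∀ i, star (β i true) = β i false)
    (j : Fin n) : (Ygen D isA β ε ((Matrix.permMatrixHom (R := ℂ)).comp π) j).IsHermitian := by
  have h1 : ∀ g, star ((Matrix.permMatrixHom (R := ℂ)).comp π g) =
      (Matrix.permMatrixHom (R := ℂ)).comp π g⁻¹ := fun g => by
    change ((π g)⁻¹.permMatrix ℂ).conjTranspose = (π g⁻¹)⁻¹.permMatrix ℂ
    rw [Matrix.conjTranspose_permMatrix, map_inv]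
  change star _ = _
  unfold Ygen
  split_ifs
  · have h2 : star (β j false) = β j true := by rw [← hβ, star_star]
    simp only [Fintype.sum_bool, star_smul, star_add, h1, hβ, h2, gen, if_true,
      Bool.false_eq_true, if_false, inv_inv, Complex.star_def, Complex.conj_ofReal]
    rw [add_comm]
  · rw [h1, c_inv]

/-- The variables of the counterexample. -/
noncomputable def Xop (r : ℝ) (i : Fin n) : Bdd (Fock F (Fin n × Bool)) :=
  Yop D isA β ε i + (r : ℂ) • sem (i, false)

/-- The two-letter alphabet. -/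
noncomputable def XY (r : ℝ) (p : Fin n × Bool) : Bdd (Fock F (Fin n × Bool)) :=
  if p.2 then Xop D isA β ε r p.1 else Yop D isA β ε p.1

theorem Xop_mem (r : ℝ) (i : Fin n) : Xop D isA β ε r i ∈ fockVN F (Fin n × Bool) :=
  add_mem (Yop_mem D _ _ _ i) (vn_smul_mem _ (sem_mem _))

theorem star_Xop (hβ : ∀ i, star (β i true) = β i false) (r : ℝ) (i : Fin n) :
    star (Xop D isA β ε r i) = Xop D isA β ε r i := by
  simp only [Xop, star_add, star_Yop D hβ, star_smul, star_sem, Complex.star_def,
    Complex.conj_ofReal]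

theorem sd_XY (hβ : ∀ i, star (β i true) = β i false) (r : ℝ) :
    SD (r ^ 2) (law vac (XY D isA β ε r)) := by
  have hm : ∀ p, XY D isA β ε r p ∈ fockVN F (Fin n × Bool) := fun p => by
    unfold XY
    split_ifs
    · exact Xop_mem D isA β ε r _
    · exact Yop_mem D _ _ _ _
  have hs : ∀ p, star (XY D isA β ε r p) = XY D isA β ε r p := fun p => by
    unfold XY
    split_ifs
    · exact star_Xop D isA β ε hβ r _
    · exact star_Yop D hβ _ _
  refine ⟨tau_one norm_vac, fun u v => ?_, law_reverse _ _ hs, fun i u => ?_⟩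
  · rw [law, law, word_append, word_append]
    exact fock_tracial.2.1 _ (word_mem _ _ hm _) _ (word_mem _ _ hm _)
  · have h := dual_bdd vac (rann (i, false)) (XY D isA β ε r) (i, true) r (rann_vac _)
      (fun k v => by
        have h := congrArg (fun T : Bdd (Fock F (Fin n × Bool)) => T v)
          (rann_Yop D isA β ε k.1 (i, false))
        simp only [mul_apply_eq_comp] at h
        obtain ⟨k, b⟩ := k
        cases b
        · simpa [XY] using h
        · simp only [XY, if_true, Xop, add_apply, smul_apply, map_add, map_smul, rann_sem_apply]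
          rw [h]
          by_cases hk : k = i
          · subst hk
            simp [mul_smul, add_assoc]
          · simp [hk, Ne.symm hk]) u
    rw [← star_sem_vac] at h
    rw [law, law, word_cons, word_cons]
    simp only [XY, if_true, Bool.false_eq_true, if_false, Xop, add_mul, tau_add, smul_mul_assoc,
      tau_smul]
    congr 1
    rw [tau, mul_apply_eq_comp]
    push_cast
    rw [sq, mul_assoc, ← h]

theorem chi_lower (hβ : ∀ i, star (β i true) = β i false) (hβ' : ∀ i b, ‖β i b‖ ≤ 1) (hε : 0 ≤ ε)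
    (hε1 : ε ≤ 1) (r : ℝ) (hr : 0 < r) : ⊥ < chi (law vac (Xop D isA β ε r)) := by
  classical
  have h := gueLower (gueVar gaussIBP) gueNorm n (r ^ 2) (by positivity) _
    (sd_XY D isA β ε hβ r) 2 zero_le_two fun m => by
      have hfin := List.finite_length_le (Fin n) m
      refine ((D.sofic (hfin.toFinset.biUnion fun w =>
        (word (Ygen D isA β ε (MonoidAlgebra.of ℂ F)) w).coeff.support)).and_eventually
        (eventually_ge_atTop 1)).mono ?_
      rintro k ⟨⟨π, hπ⟩, hk⟩
      refine ⟨Ygen D isA β ε ((Matrix.permMatrixHom (R := ℂ)).comp π),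
        ⟨herm_Ygen D isA β ε π hβ, fun u hu => ?_⟩, opLe_Ygen D isA β ε π hβ' hε hε1⟩
      rw [law, word_map]
      simp only [XY, Bool.false_eq_true, if_false]
      rw [Yop_eq, word_Ygen D isA β ε (lamHom F _), word_Ygen D isA β ε (MonoidHom.comp _ π),
        tau_sum, Matrix.trace_sum, Finset.sum_div]
      refine Finset.sum_congr rfl fun g hg => ?_
      rw [tau_smul, Matrix.trace_smul, smul_eq_mul, mul_div_assoc]
      congr 1
      refine (trace_perm hk π g (hπ g ?_)).trans (tau_lam g).symm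
      exact Finset.mem_biUnion.2 ⟨u, by simpa using hu, hg⟩
  have e : (fun w : List (Fin n) => law vac (XY D isA β ε r) (w.map fun i => (i, true))) =
      law vac (Xop D isA β ε r) := by
    funext w
    rw [law, law, word_map]
    rfl
  rw [e] at h
  exact (EReal.bot_lt_coe _).trans_le ((chiBounds n _ _).2 h)

end Vale.Agent.P087
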